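import Vale.Agent.P144Z.E5.Base

/-! Estimates in a flat field and the reduction of a cluster of fluxes to a flat field. -/

namespace Vale.Agent.P144Z.E5

open Finset Matrix

theorem energy_flat : ∃ C : ℝ, 1 ≤ C ∧ ∀ (M : ℕ) [NeZero M] (A : Gauge M), IsSign A →
    (∀ f, flux A f = 1) → ∀ φ : Tor M × Fin 4 → ℝ,
    gradsq A univ φ ≤ C * l2sq univ (Dm A *ᵥ φ) := by
  obtain ⟨C, hC, h⟩ := energy_b
  exact ⟨C, hC, fun M _ A hA hF φ => h M A hA φ fun f hf => by rw [hF f] at hf; norm_num at hf⟩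

/-- The logarithmic inequality with the logarithm replaced by a power. -/
theorem poin_pow : ∃ C : ℝ, 1 ≤ C ∧ ∀ (M : ℕ) [NeZero M] (A : Gauge M), IsSign A →
    ∀ (z : Tor M) (r ρ : ℕ) (t : ℝ), r ≤ ρ → 2 * ρ + 1 ≤ M → ((ρ : ℝ) + 1) / (r + 1) ≤ t →
    ∀ φ : Tor M × Fin 4 → ℝ, l2sq (ball z r) φ ≤ C * ((r : ℝ) + 1) ^ 2 *
      (l2sq univ φ / ((ρ : ℝ) + 1) ^ 2 + 16 * √t * gradsq A univ φ) := by
  obtain ⟨C, hC, h⟩ := poin_log
  refine ⟨C, hC, fun M _ A hA z r ρ t hr hM ht φ => (h M A hA z r ρ hr hM φ).trans ?_⟩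
  have k : (1 : ℝ) ≤ ((ρ : ℝ) + 1) / (r + 1) := by
    rw [le_div_iff₀ (by positivity), one_mul]
    exact_mod_cast (by omega : r + 1 ≤ ρ + 1)
  exact mul_le_mul_of_nonneg_left (add_le_add
    (div_le_div_of_nonneg_right (l2sq_le_univ _ _) (by positivity))
    (mul_le_mul (log_sq_le' k ht) (gradsq_le_univ _ _ _) (gradsq_nonneg _ _ _) (by positivity)))
    (by positivity)

theorem solve_log : ∃ C : ℝ, 1 ≤ C ∧ ∀ (M : ℕ) [NeZero M] (A : Gauge M), IsSign A →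
    (∀ f, flux A f = 1) → ∀ (B : Finset (Tor M)) (c : Tor M) (r ρ : ℕ) (κ t : ℝ), r ≤ ρ →
    2 * ρ + 1 ≤ M → 1 ≤ κ → 1 ≤ t → ((ρ : ℝ) + 1) / (r + 1) ≤ t →
    (∀ ζ : Tor M × Fin 4 → ℝ, (∀ s, s.1 ∉ B → ζ s = 0) →
      l2sq univ ζ ≤ κ * ((ρ : ℝ) + 1) ^ 2 * gradsq A univ ζ) →
    ∀ s : Tor M × Fin 4 → ℝ, SuppIn s c r → ∃ w : Tor M × Fin 4 → ℝ,
      l2sq univ w ≤ C * κ * √t * (((r : ℝ) + 1) ^ 2 * l2sq univ s) ∧
      ∀ u, u.1 ∈ B → (Dm A *ᵥ w) u = s u := by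
  obtain ⟨Cb, hCb, hb⟩ := energy_flat
  obtain ⟨Cl, hCl, hl⟩ := poin_pow
  refine ⟨17 * Cl * Cb, by nlinarith, fun M _ A hA hF B c r ρ κ t hr hM hκ ht1 ht hB s hs => ?_⟩
  have hS := l2sq_nonneg univ s
  refine exists_solve A B s (mul_nonneg (by positivity) (mul_nonneg (sq_nonneg _) hS))
    fun ζ hζ => ?_
  have h1 := dot_sq_le (B := ball c r) (fun u hu => hs u (not_le.1 fun h => hu (mem_ball.2 h))) ζ
  have h2 := hl M A hA c r ρ t hr hM ht ζ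
  have h3 : l2sq univ ζ / ((ρ : ℝ) + 1) ^ 2 ≤ κ * gradsq A univ ζ := by
    rw [div_le_iff₀ (by positivity)]
    linarith [hB ζ hζ]
  have h4 := hb M A hA hF ζ
  have h5 := gradsq_nonneg A univ ζ
  have h6 : 1 ≤ √t := Real.one_le_sqrt.2 ht1
  generalize gradsq A univ ζ = G at *
  generalize l2sq univ (Dm A *ᵥ ζ) = E at *
  generalize l2sq univ s = S at *
  generalize l2sq univ ζ / ((ρ : ℝ) + 1) ^ 2 = Z at *
  generalize √t = q at *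
  have h7 : Z + 16 * q * G ≤ 17 * κ * q * (Cb * E) :=
    calc Z + 16 * q * G ≤ κ * 1 * G + 16 * 1 * q * G := by linarith
      _ ≤ κ * q * G + 16 * κ * q * G := by gcongr
      _ = 17 * κ * q * G := by ring
      _ ≤ _ := by gcongr
  calc _ ≤ _ := h1
    _ ≤ S * (Cl * ((r : ℝ) + 1) ^ 2 * (17 * κ * q * (Cb * E))) :=
      mul_le_mul_of_nonneg_left (h2.trans (by gcongr)) hS
    _ = _ := by ring

theorem flat_num {l p X N E V W D G w C Cb Cl : ℝ} (hl : 1 ≤ l) (hp : l ≤ p) (hC : 1 ≤ C)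
    (hCb : 1 ≤ Cb) (hCl : 1 ≤ Cl) (hN : 0 ≤ N) (hE : 0 ≤ E) (hW : 0 ≤ W) (hw : p ≤ 3 * w)
    (h1 : w ^ 2 * W ≤ C * N) (h2 : V ≤ E) (h3 : D ≤ 2 * W + 2 * V) (h4 : G ≤ Cb * D)
    (h5 : X ≤ Cl * (2 * l + 1) ^ 2 * (N / (p + 1) ^ 2 + 16 * √(p / l) * G)) :
    X ≤ 9 * Cl * (1 + 288 * C * Cb) * (l / p * √(l / p)) * (N + p ^ 2 * E) := by
  have hp0 : 0 < p := by linarith
  have hY : 0 ≤ p ^ 2 * E := by positivity
  have k1 : p ^ 2 * W ≤ 9 * (C * N) :=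
    calc p ^ 2 * W ≤ (3 * w) ^ 2 * W := by gcongr
      _ = 9 * (w ^ 2 * W) := by ring
      _ ≤ _ := by gcongr
  have k2 : G ≤ 18 * C * Cb * ((N + p ^ 2 * E) / p ^ 2) := by
    rw [← mul_div_assoc, le_div_iff₀ (by positivity)]
    calc G * p ^ 2 ≤ Cb * (2 * W + 2 * E) * p ^ 2 := by
          gcongr
          exact h4.trans (by gcongr; linarith)
      _ = Cb * (2 * (p ^ 2 * W) + 2 * 1 * (p ^ 2 * E)) := by ring
      _ ≤ Cb * (2 * (9 * (C * N)) + 18 * C * (p ^ 2 * E)) := by gcongr; linarith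
      _ = _ := by ring
  have k3 : N / (p + 1) ^ 2 ≤ (N + p ^ 2 * E) / p ^ 2 := by gcongr <;> linarith
  have q0 : 0 < √(l / p) := Real.sqrt_pos.2 (by positivity)
  have q1 : √(l / p) ≤ 1 := Real.sqrt_le_one.2 ((div_le_one hp0).2 hp)
  have q2 : √(l / p) ^ 2 = l / p := Real.sq_sqrt (by positivity)
  have q3 : √(p / l) = (√(l / p))⁻¹ := by rw [← Real.sqrt_inv, inv_div]
  rw [q3] at h5
  generalize √(l / p) = q at *
  have e : l = q ^ 2 * p := by rw [q2]; field_simp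
  have hZ : 0 ≤ (N + p ^ 2 * E) / p ^ 2 := by positivity
  calc X ≤ Cl * (3 * l) ^ 2 * (1 * ((N + p ^ 2 * E) / p ^ 2) +
        16 * q⁻¹ * (18 * C * Cb * ((N + p ^ 2 * E) / p ^ 2))) := by
        refine h5.trans ?_
        have : 0 ≤ N / (p + 1) ^ 2 + 16 * q⁻¹ * (18 * C * Cb * ((N + p ^ 2 * E) / p ^ 2)) := by
          positivity
        calc _ ≤ Cl * (2 * l + 1) ^ 2 * (N / (p + 1) ^ 2 +
              16 * q⁻¹ * (18 * C * Cb * ((N + p ^ 2 * E) / p ^ 2))) := by gcongr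
          _ ≤ _ := by gcongr <;> linarith
    _ ≤ Cl * (3 * l) ^ 2 * (q⁻¹ * ((N + p ^ 2 * E) / p ^ 2) +
        16 * q⁻¹ * (18 * C * Cb * ((N + p ^ 2 * E) / p ^ 2))) := by
        gcongr
        exact (one_le_inv₀ q0).2 q1
    _ = _ := by
        rw [← q2, e]
        field_simp
        ring

/-- The interior estimate in a flat field. -/
theorem flat_est : ∃ C : ℝ, 1 ≤ C ∧ ∀ (M : ℕ) [NeZero M] (A : Gauge M), IsSign A →
    (∀ f, flux A f = 1) → ∀ (z : Tor M) (ℓ ρ : ℕ), 1 ≤ ℓ → 8 * ℓ ≤ ρ → 2 * ρ + 1 ≤ M →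
    ∀ y : Tor M × Fin 4 → ℝ, l2sq (ball z (2 * ℓ)) y ≤ C * ((ℓ : ℝ) / ρ * √((ℓ : ℝ) / ρ)) *
      (l2sq univ y + ρ ^ 2 * l2sq (ball z ρ) (Dm A *ᵥ y)) := by
  obtain ⟨Cb, hCb, hb⟩ := energy_flat
  obtain ⟨Cl, hCl, hl⟩ := poin_pow
  obtain ⟨C, hC, hc⟩ := cut_est
  have hpos : 0 < C * Cb := by positivity
  refine ⟨9 * Cl * (1 + 288 * C * Cb), by nlinarith, fun M _ A hA hF z ℓ ρ h1 h8 hM y => ?_⟩
  obtain ⟨η, e0, e1, e2, e3⟩ := hc M A hA z (2 * ℓ) (ρ / 2) (by omega)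
  have hℓ : (1 : ℝ) ≤ ℓ := by exact_mod_cast h1
  have hρ : (ℓ : ℝ) ≤ ρ := by exact_mod_cast (by omega : ℓ ≤ ρ)
  have k1 := hl M A hA z (2 * ℓ) ρ (ρ / ℓ) (by omega) hM (by
    rw [div_le_div_iff₀ (by positivity) (by positivity)]
    push_cast
    nlinarith) fun s => η s.1 * y s
  rw [l2sq_congr (g := y) fun s hs => by rw [e1 _ (mem_ball.1 hs), one_mul]] at k1
  have k2 := l2sq_add_le univ (Dm A *ᵥ (fun s => η s.1 * y s) - fun s => η s.1 * (Dm A *ᵥ y) s)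
    fun s => η s.1 * (Dm A *ᵥ y) s
  rw [sub_add_cancel] at k2
  refine flat_num hℓ hρ hC hCb hCl (l2sq_nonneg _ _) (l2sq_nonneg _ _) (l2sq_nonneg _ _)
    (by exact_mod_cast (by omega : ρ ≤ 3 * (ρ / 2)))
    ((e3 y).trans (mul_le_mul_of_nonneg_left (l2sq_le_univ _ _) (by linarith)))
    (l2sq_cut e0 (fun x hx => e2 x ?_) _) k2 (hb M A hA hF _) (k1.trans ?_)
  · rw [mem_ball] at hx
    omega
  · push_cast
    exact mul_le_mul_of_nonneg_left (add_le_add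
      (div_le_div_of_nonneg_right (l2sq_cut e0 (by simp) _) (by positivity)) le_rfl)
      (by positivity)

/-- Removal of the neighbourhood of the cluster. -/
theorem split : ∃ C : ℝ, 1 ≤ C ∧ ∀ (M : ℕ) [NeZero M] (A A' : Gauge M) (c : Tor M) (R r : ℕ),
    Cluster A A' c R r → 1 ≤ R → ∀ φ : Tor M × Fin 4 → ℝ, ∃ ψ h s : Tor M × Fin 4 → ℝ,
      Dm A' *ᵥ ψ = h - s ∧ l2sq univ h ≤ l2sq univ (Dm A *ᵥ φ) ∧ SuppIn s c (2 * R + 1) ∧
      (R : ℝ) ^ 2 * l2sq univ s ≤ C * l2sq (ball c (4 * R)) φ ∧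
      l2sq univ (φ - ψ) ≤ l2sq (ball c (4 * R)) φ ∧ l2sq univ ψ ≤ l2sq univ φ := by
  obtain ⟨C, hC, hc⟩ := cut_est
  refine ⟨C, hC, fun M _ A A' c R r h hR φ => ?_⟩
  obtain ⟨η, e0, e1, e2, e3⟩ := hc M A h.sign c (R + 1) R hR
  have e0' : ∀ x, 0 ≤ 1 - η x ∧ 1 - η x ≤ 1 := fun x => ⟨by linarith [(e0 x).2], by
    linarith [(e0 x).1]⟩
  refine ⟨fun s => (1 - η s.1) * φ s, fun s => (1 - η s.1) * (Dm A *ᵥ φ) s,
    Dm A *ᵥ (fun s => η s.1 * φ s) - fun s => η s.1 * (Dm A *ᵥ φ) s, ?_,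
    l2sq_cut e0' (by simp) _, fun s hs => ?_, (e3 φ).trans (mul_le_mul_of_nonneg_left
      (l2sq_mono (ball_mono c (by omega)) φ) (by linarith)), ?_, l2sq_cut e0' (by simp) _⟩
  · rw [← Dm_congr h.out fun s hs => by rw [e1 _ hs, sub_self, zero_mul]]
    have : (fun s : Tor M × Fin 4 => (1 - η s.1) * φ s) = φ - fun s => η s.1 * φ s := by
      funext s
      simp only [Pi.sub_apply]
      ring
    rw [this, mulVec_sub]
    funext s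
    simp only [Pi.sub_apply]
    ring
  · have k := Dm_local A (φ := fun s => η s.1 * φ s) (φ' := 0) (z := s.1) (r := 0) 1
      (fun t ht => by
        have t1 := tdist_triangle s.1 t.1 c
        rw [tdist_comm s.1 t.1] at t1
        rw [e2 _ (by omega), zero_mul, Pi.zero_apply]) s (by rw [tdist_self])
    rw [pow_one, mulVec_zero] at k
    rw [Pi.sub_apply, k, e2 _ (by omega), zero_mul, Pi.zero_apply, sub_zero]
  · have : φ - (fun s : Tor M × Fin 4 => (1 - η s.1) * φ s) = fun s => η s.1 * φ s := by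
      funext s
      simp only [Pi.sub_apply]
      ring
    rw [this]
    refine l2sq_cut e0 (fun x hx => e2 x ?_) _
    rw [mem_ball] at hx
    omega

/-- Reduction to the flat field. -/
theorem reduce : ∃ C : ℝ, 1 ≤ C ∧ ∀ (M : ℕ) [NeZero M] (A A' : Gauge M) (c : Tor M) (R r : ℕ),
    Cluster A A' c R r → 1 ≤ R → ∀ (B : Finset (Tor M)) (ρ : ℕ) (κ t : ℝ), 2 * R + 1 ≤ ρ →
    2 * ρ + 1 ≤ M → 1 ≤ κ → 1 ≤ t → ((ρ : ℝ) + 1) / (2 * R + 2) ≤ t →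
    (∀ ζ : Tor M × Fin 4 → ℝ, (∀ s, s.1 ∉ B → ζ s = 0) →
      l2sq univ ζ ≤ κ * ((ρ : ℝ) + 1) ^ 2 * gradsq A' univ ζ) →
    ∀ φ : Tor M × Fin 4 → ℝ, ∃ y : Tor M × Fin 4 → ℝ,
      l2sq B (Dm A' *ᵥ y) ≤ l2sq univ (Dm A *ᵥ φ) ∧
      l2sq univ (φ - y) ≤ C * κ * √t * l2sq (ball c (4 * R)) φ := by
  obtain ⟨Cs, hCs, hs⟩ := split
  obtain ⟨Cw, hCw, hw⟩ := solve_log
  refine ⟨2 + 32 * Cw * Cs, by nlinarith [mul_pos (by linarith : 0 < Cw) (by linarith : 0 < Cs)],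
    fun M _ A A' c R r h hR B ρ κ t hρ hM hκ ht1 ht hB φ => ?_⟩
  obtain ⟨ψ, g, s, a1, a2, a3, a4, a5, -⟩ := hs M A A' c R r h hR φ
  obtain ⟨w, b1, b2⟩ := hw M A' h.sign' h.flat B c (2 * R + 1) ρ κ t hρ hM hκ ht1
    (by push_cast; rwa [add_assoc, one_add_one_eq_two]) hB s a3
  refine ⟨ψ + w, ((l2sq_congr fun u hu => ?_).trans_le (l2sq_le_univ B g)).trans a2, ?_⟩
  · rw [mulVec_add, Pi.add_apply, a1, b2 u hu, Pi.sub_apply, sub_add_cancel]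
  · have k := l2sq_sub_le univ (φ - ψ) w
    rw [sub_sub] at k
    have hR' : (1 : ℝ) ≤ R := by exact_mod_cast hR
    have h6 : 1 ≤ √t := Real.one_le_sqrt.2 ht1
    have hS := l2sq_nonneg univ s
    have hX := l2sq_nonneg (ball c (4 * R)) φ
    push_cast at b1
    generalize l2sq (ball c (4 * R)) φ = X at *
    generalize l2sq univ s = S at *
    generalize √t = q at *
    have k1 : l2sq univ w ≤ 16 * Cw * Cs * κ * q * X :=
      calc _ ≤ _ := b1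
        _ ≤ Cw * κ * q * ((4 * R) ^ 2 * S) := by gcongr; linarith
        _ = 16 * Cw * κ * q * (R ^ 2 * S) := by ring
        _ ≤ 16 * Cw * κ * q * (Cs * X) := by gcongr
        _ = _ := by ring
    have k2 : X ≤ κ * q * X := le_mul_of_one_le_left hX (by nlinarith)
    linarith

end Vale.Agent.P144Z.E5
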