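import Vale.Agent.P144Z.E5.Clus
import Vale.Agent.P144Z.E5.Flat

/-! The spectral gap in the antiperiodic sectors. -/

namespace Vale.Agent.P144Z.E5

open Finset Matrix

theorem half_sq {M : ℕ} : (M : ℝ) ^ 2 ≤ 4 * ((((M - 1) / 2 : ℕ) : ℝ) + 1) ^ 2 := by
  have : (M : ℝ) ≤ 2 * ((((M - 1) / 2 : ℕ) : ℝ) + 1) := by
    exact_mod_cast (by omega : M ≤ 2 * ((M - 1) / 2 + 1))
  nlinarith [(Nat.cast_nonneg M : (0 : ℝ) ≤ M)]

theorem flat_gap : ∃ C₀ : ℝ, 1 ≤ C₀ ∧ ∀ (M : ℕ) [NeZero M] (A : Gauge M), IsSign A →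
    (∀ f, flux A f = 1) → (∃ i, Anti A i) → ∀ φ : Tor M × Fin 4 → ℝ,
    l2sq univ φ ≤ (C₀ * M) ^ 2 * l2sq univ (Dm A *ᵥ φ) ∧
      ∀ s, φ s ^ 2 ≤ (C₀ * (1 + Real.log M)) ^ 2 * l2sq univ (Dm A *ᵥ φ) := by
  obtain ⟨Cb, hCb, hb⟩ := energy_flat
  obtain ⟨Ca, hCa, ha⟩ := poin_anti
  obtain ⟨Cl, hCl, hl⟩ := poin_log
  have c1 : 1 ≤ Ca * Cb := one_le_mul_of_one_le_of_one_le hCa hCb
  have c2 : Ca * Cb ≤ 5 * Cl * (Ca * Cb) := le_mul_of_one_le_left (by linarith) (by linarith)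
  have c3 : 5 * Cl * (Ca * Cb) ≤ (5 * Cl * (Ca * Cb)) ^ 2 := le_self_pow₀ (by linarith) two_ne_zero
  refine ⟨5 * Cl * (Ca * Cb), by linarith, ?_⟩
  rintro M _ A hA hF ⟨i, hi⟩ φ
  have h1 := ha M A hA i hi φ
  have h2 := hb M A hA hF φ
  have hE := l2sq_nonneg univ (Dm A *ᵥ φ)
  have hG := gradsq_nonneg A univ φ
  have hM := NeZero.pos M
  refine ⟨?_, fun s => ?_⟩
  · generalize l2sq univ (Dm A *ᵥ φ) = E at *
    calc _ ≤ Ca * M ^ 2 * (Cb * E) := h1.trans (mul_le_mul_of_nonneg_left h2 (by positivity))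
      _ = Ca * Cb * M ^ 2 * E := by ring
      _ ≤ (5 * Cl * (Ca * Cb)) ^ 2 * M ^ 2 * E := by gcongr; linarith
      _ = _ := by ring
  · have h3 := hl M A hA s.1 0 ((M - 1) / 2) (Nat.zero_le _) (by omega) φ
    have h4 : φ s ^ 2 ≤ l2sq (ball s.1 0) φ :=
      (single_le_sum (f := fun a => φ (s.1, a) ^ 2) (fun _ _ => sq_nonneg _) (mem_univ s.2)).trans
        (single_le_sum (f := fun x => ∑ a, φ (x, a) ^ 2)
          (fun _ _ => sum_nonneg fun _ _ => sq_nonneg _) (mem_ball.2 (tdist_self _).le))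
    have h5 : l2sq (ball s.1 ((M - 1) / 2)) φ / ((((M - 1) / 2 : ℕ) : ℝ) + 1) ^ 2 ≤
        4 * Ca * gradsq A univ φ := by
      rw [div_le_iff₀ (by positivity)]
      linarith [l2sq_le_univ (ball s.1 ((M - 1) / 2)) φ,
        mul_le_mul_of_nonneg_left (half_sq (M := M)) (mul_nonneg (by linarith : 0 ≤ Ca) hG)]
    have h6 : Real.log ((((M - 1) / 2 : ℕ) : ℝ) + 1) ≤ Real.log M := Real.log_le_log
      (by positivity) (by exact_mod_cast (by omega : (M - 1) / 2 + 1 ≤ M))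
    have h7 : 0 ≤ Real.log ((((M - 1) / 2 : ℕ) : ℝ) + 1) :=
      Real.log_nonneg (le_add_of_nonneg_left (Nat.cast_nonneg _))
    have h8 := gradsq_le_univ A (ball s.1 ((M - 1) / 2)) φ
    have h9 := gradsq_nonneg A (ball s.1 ((M - 1) / 2)) φ
    simp only [Nat.cast_zero, zero_add, one_pow, mul_one, div_one] at h3
    generalize l2sq univ (Dm A *ᵥ φ) = E at *
    generalize gradsq A univ φ = G at *
    generalize gradsq A (ball s.1 ((M - 1) / 2)) φ = G₁ at *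
    generalize Real.log ((((M - 1) / 2 : ℕ) : ℝ) + 1) = L₁ at *
    generalize Real.log M = L at *
    have k1 : 1 ≤ (1 + L) ^ 2 := one_le_pow₀ (by linarith)
    calc _ ≤ Cl * (4 * Ca * G * 1 + 1 * (1 + L₁) ^ 2 * G₁) := h4.trans (h3.trans
          (mul_le_mul_of_nonneg_left (by linarith) (by linarith)))
      _ ≤ Cl * (4 * Ca * (Cb * E) * (1 + L) ^ 2 + Ca * (1 + L) ^ 2 * (Cb * E)) := by
          gcongr
          linarith
      _ = 5 * Cl * (Ca * Cb) * (1 + L) ^ 2 * E := by ring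
      _ ≤ (5 * Cl * (Ca * Cb)) ^ 2 * (1 + L) ^ 2 * E := by gcongr
      _ = _ := by ring

/-- The cluster carries a small part of the norm. -/
theorem clus_small (Λ R : ℕ) : ∃ K : ℝ, 0 ≤ K ∧ ∀ (M : ℕ) [NeZero M], 16 * R ≤ M →
    ∀ (A A' : Gauge M) (c : Tor M) (r : ℕ), Cluster A A' c R r → 256 ≤ r → r ≤ R → R ≤ Λ * r →
    ∀ φ : Tor M × Fin 4 → ℝ, M * l2sq (ball c (4 * R)) φ ≤
      K * (l2sq univ φ + M ^ 2 * l2sq univ (Dm A *ᵥ φ)) := by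
  obtain ⟨Cb, hCb, hb⟩ := energy_flat
  obtain ⟨Cl, hCl, hl⟩ := poin_pow
  obtain ⟨K, hK, hk⟩ := cluster Λ
  refine ⟨K * (R ^ 2 + R) + Cl * ((4 * R : ℕ) + 1) ^ 2 * (16 * Cb), by positivity,
    fun M _ hM A A' c r h h256 hrR hΛ φ => ?_⟩
  have hN := l2sq_nonneg univ φ
  have hE := l2sq_nonneg univ (Dm A *ᵥ φ)
  have hM1 : (1 : ℝ) ≤ M := by exact_mod_cast (by omega : 1 ≤ M)
  by_cases hF : ∃ f, flux A f = -1
  · have h1 := hk M A A' c R r h hF h256 hrR hΛ hM φ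
    generalize l2sq univ (Dm A *ᵥ φ) = E at *
    generalize l2sq univ φ = N at *
    have k1 : M * (√N * √E) ≤ N + M ^ 2 * E := by
      nlinarith [Real.sq_sqrt hN, Real.sq_sqrt hE, sq_nonneg (√N - M * √E)]
    have k2 : M * E ≤ N + M ^ 2 * E := by nlinarith [mul_nonneg (sub_nonneg.2 hM1) hE]
    have k3 : 0 ≤ N + M ^ 2 * E := by positivity
    calc _ ≤ M * (K * (R ^ 2 * E + R * (√N * √E))) :=
          mul_le_mul_of_nonneg_left h1 (by linarith)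
      _ = K * (R ^ 2 * (M * E) + R * (M * (√N * √E))) := by ring
      _ ≤ K * (R ^ 2 * (N + M ^ 2 * E) + R * (N + M ^ 2 * E)) := by gcongr
      _ = K * (R ^ 2 + R) * (N + M ^ 2 * E) := by ring
      _ ≤ _ := mul_le_mul_of_nonneg_right (le_add_of_nonneg_right (by positivity)) k3
  · have h1 := hl M A h.sign c (4 * R) ((M - 1) / 2) M (by omega) (by omega)
      ((div_le_self (by positivity) (le_add_of_nonneg_left (Nat.cast_nonneg _))).trans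
        (by exact_mod_cast (by omega : (M - 1) / 2 + 1 ≤ M))) φ
    have h2 := hb M A h.sign (fun f => flux_one h.sign fun hf => hF ⟨f, hf⟩) φ
    have hG := gradsq_nonneg A univ φ
    generalize l2sq univ (Dm A *ᵥ φ) = E at *
    generalize l2sq univ φ = N at *
    generalize gradsq A univ φ = G at *
    have k1 : M * (N / ((((M - 1) / 2 : ℕ) : ℝ) + 1) ^ 2) ≤ 16 * Cb * N := by
      rw [← mul_div_assoc, div_le_iff₀ (by positivity)]
      calc M * N ≤ 1 * M ^ 2 * N := by gcongr; nlinarith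
        _ ≤ 4 * Cb * (4 * ((((M - 1) / 2 : ℕ) : ℝ) + 1) ^ 2) * N := by
          gcongr
          · linarith
          · exact half_sq
        _ = _ := by ring
    have k2 : √(M : ℝ) ≤ M := Real.sqrt_le_iff.2 ⟨by linarith, by nlinarith⟩
    have k3 : 0 ≤ N + M ^ 2 * E := by positivity
    generalize N / ((((M - 1) / 2 : ℕ) : ℝ) + 1) ^ 2 = Z at *
    calc _ ≤ M * (Cl * ((4 * R : ℕ) + 1) ^ 2 * (Z + 16 * √(M : ℝ) * G)) :=
          mul_le_mul_of_nonneg_left h1 (by linarith)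
      _ = Cl * ((4 * R : ℕ) + 1) ^ 2 * (M * Z + 16 * M * √(M : ℝ) * G) := by ring
      _ ≤ Cl * ((4 * R : ℕ) + 1) ^ 2 * (16 * Cb * N + 16 * M * M * (Cb * E)) := by gcongr
      _ = Cl * ((4 * R : ℕ) + 1) ^ 2 * (16 * Cb) * (N + M ^ 2 * E) := by ring
      _ ≤ _ := mul_le_mul_of_nonneg_right (le_add_of_nonneg_left (by positivity)) k3

theorem gap_num {m N E X P Y K κ C : ℝ} (hm : 1 ≤ m) (hκ : 0 ≤ κ) (hC : 1 ≤ C)
    (hN : 0 ≤ N) (hE : 0 ≤ E) (h0 : (4 * (κ * K)) ^ 2 ≤ m) (h1 : m * X ≤ K * (N + m ^ 2 * E))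
    (h2 : P ≤ κ * √m * X) (h3 : Y ≤ (C * m) ^ 2 * E) (h4 : N ≤ 2 * Y + 2 * P) :
    N ≤ (3 * C * m) ^ 2 * E := by
  have q0 : 1 ≤ √m := Real.one_le_sqrt.2 hm
  have q1 : 4 * (κ * K) ≤ √m := Real.le_sqrt_of_sq_le h0
  have q2 : √m * √m = m := Real.mul_self_sqrt (by linarith)
  have k3 : 0 ≤ N + m ^ 2 * E := by positivity
  have k1 : 4 * P ≤ N + m ^ 2 * E := by
    refine le_of_mul_le_mul_left ?_ (by linarith : 0 < m)
    calc m * (4 * P) ≤ m * (4 * (κ * √m * X)) := by gcongr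
      _ = 4 * κ * √m * (m * X) := by ring
      _ ≤ 4 * κ * √m * (K * (N + m ^ 2 * E)) := by gcongr
      _ = 4 * (κ * K) * √m * (N + m ^ 2 * E) := by ring
      _ ≤ √m * √m * (N + m ^ 2 * E) := by gcongr
      _ = _ := by rw [q2]
  have k2 : 1 * (m ^ 2 * E) ≤ C ^ 2 * (m ^ 2 * E) := by gcongr; nlinarith
  have k4 : 0 ≤ m ^ 2 * E := by positivity
  linarith

theorem anti_gap : ∃ C₀ : ℝ, 1 ≤ C₀ ∧ ∀ Λ R : ℕ, ∃ M₀ : ℕ, ∀ (M : ℕ) [NeZero M], M₀ ≤ M →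
    ∀ (A A' : Gauge M) (c : Tor M) (r : ℕ), Cluster A A' c R r → 256 ≤ r → r ≤ R → R ≤ Λ * r →
    (∃ i, Anti A' i) → ∀ φ : Tor M × Fin 4 → ℝ,
    l2sq univ φ ≤ (C₀ * M) ^ 2 * l2sq univ (Dm A *ᵥ φ) := by
  obtain ⟨C, hC, hc⟩ := flat_gap
  obtain ⟨Ca, hCa, ha⟩ := poin_anti
  obtain ⟨Cr, hCr, hr⟩ := reduce
  refine ⟨3 * C, by linarith, fun Λ R => ?_⟩
  obtain ⟨K, hK, hk⟩ := clus_small Λ R
  refine ⟨16 * R + ⌈(4 * (Cr * (4 * Ca) * K)) ^ 2⌉₊, ?_⟩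
  rintro M _ hM A A' c r h h256 hrR hΛ ⟨i, hi⟩ φ
  have hM1 : (1 : ℝ) ≤ M := by exact_mod_cast (by omega : 1 ≤ M)
  obtain ⟨y, b1, b2⟩ := hr M A A' c R r h (by omega) univ ((M - 1) / 2) (4 * Ca) M (by omega)
    (by omega) (by linarith) hM1 ((div_le_self (by positivity) (by
      linarith [(Nat.cast_nonneg R : (0 : ℝ) ≤ R)])).trans
      (by exact_mod_cast (by omega : (M - 1) / 2 + 1 ≤ M))) (fun ζ _ => by
        linarith [ha M A' h.sign' i hi ζ, mul_le_mul_of_nonneg_left (half_sq (M := M))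
          (mul_nonneg (by linarith : 0 ≤ Ca) (gradsq_nonneg A' univ ζ))]) φ
  have k2 := l2sq_add_le univ y (φ - y)
  rw [add_sub_cancel] at k2
  exact gap_num hM1 (by positivity) hC (l2sq_nonneg _ _) (l2sq_nonneg _ _)
    (Nat.ceil_le.1 (by omega)) (hk M (by omega) A A' c r h h256 hrR hΛ φ) b2
    ((hc M A' h.sign' h.flat ⟨i, hi⟩ y).1.trans (mul_le_mul_of_nonneg_left b1 (sq_nonneg _))) k2

end Vale.Agent.P144Z.E5
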