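import Vale.Agent.P144Z.E5.Flat

/-! The periodic sector: the kernel and the gap. -/

namespace Vale.Agent.P144Z.E5

open Finset Matrix

variable {M : ℕ} [NeZero M]

theorem card_tor : (Fintype.card (Tor M) : ℝ) = M ^ 2 := by
  simp [Fintype.card_prod, ZMod.card, pow_two]

theorem zm_ker (a : Fin 2) : Dm (1 : Gauge M) *ᵥ zm M a = 0 := by
  have hs : √(2 : ℝ) * √2 = 2 := Real.mul_self_sqrt two_pos.le
  funext ⟨x, b⟩
  rw [Dm_apply]
  fin_cases a <;> fin_cases b <;> simp [zm, kv, sA, tc, Fin.sum_univ_four] <;>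
    first | ring1 | linear_combination (-(M : ℝ)⁻¹ / 2) * hs

theorem zm_orth (a b : Fin 2) : zm M a ⬝ᵥ zm M b = if a = b then 1 else 0 := by
  have hs : √(2 : ℝ) * √2 = 2 := Real.mul_self_sqrt two_pos.le
  have hM : (M : ℝ) ≠ 0 := Nat.cast_ne_zero.2 (NeZero.ne M)
  have e : zm M a ⬝ᵥ zm M b = ∑ c, kv a c * kv b c := by
    simp only [dotProduct, Fintype.sum_prod_type, zm, sum_const, card_univ, nsmul_eq_mul, card_tor,
      mul_sum]
    exact sum_congr rfl fun c _ => by field_simp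
  rw [e]
  fin_cases a <;> fin_cases b <;> simp [kv, Fin.sum_univ_four] <;> linarith

theorem per_num {s a b c d : ℝ} (hs : s * s = 2) :
    (a - (s / 2 * a - b / 2 + d / 2) * (s / 2)) ^ 2 +
      (b - ((s / 2 * a - b / 2 + d / 2) * (-1 / 2) + (b / 2 - s / 2 * c + d / 2) * (1 / 2))) ^ 2 +
      (c - (b / 2 - s / 2 * c + d / 2) * (-s / 2)) ^ 2 +
      (d - ((s / 2 * a - b / 2 + d / 2) * (1 / 2) + (b / 2 - s / 2 * c + d / 2) * (1 / 2))) ^ 2 =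
      ((b + s * c + d) ^ 2 + (-(s * a) - b + d) ^ 2) / 4 := by
  have e1 : a - (s / 2 * a - b / 2 + d / 2) * (s / 2) = (s * a + b - d) * (s / 4) := by
    linear_combination (-a / 2) * hs
  have e2 : c - (b / 2 - s / 2 * c + d / 2) * (-s / 2) = (b + s * c + d) * (s / 4) := by
    linear_combination (-c / 2) * hs
  rw [e1, e2]
  linear_combination (((s * a + b - d) ^ 2 + (b + s * c + d) ^ 2) / 16) * hs

theorem sum_Dm (φ : Tor M × Fin 4 → ℝ) :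
    ∑ x, (Dm (1 : Gauge M) *ᵥ φ) (x, 0) = ∑ x, φ (x, 1) + √2 * ∑ x, φ (x, 2) + ∑ x, φ (x, 3) ∧
    ∑ x, (Dm (1 : Gauge M) *ᵥ φ) (x, 2) = -(√2 * ∑ x, φ (x, 0)) - ∑ x, φ (x, 1) + ∑ x, φ (x, 3) := by
  have k1 : ∑ x, φ (x + uv M 0, 2) = ∑ x, φ (x, 2) :=
    Equiv.sum_comp (Equiv.addRight (uv M 0)) fun x => φ (x, 2)
  have k2 : ∑ x, φ (x - uv M 0, 0) = ∑ x, φ (x, 0) :=
    Equiv.sum_comp (Equiv.subRight (uv M 0)) fun x => φ (x, 0)
  constructor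
  · simp [Dm_apply, sA, tc, Fin.sum_univ_four, sum_add_distrib, ← mul_sum, k1]
    ring
  · simp [Dm_apply, sA, tc, Fin.sum_univ_four, sum_add_distrib, ← mul_sum, k2]
    ring

theorem per_gap : ∃ C₀ : ℝ, 1 ≤ C₀ ∧ ∀ (M : ℕ) [NeZero M] (φ : Tor M × Fin 4 → ℝ),
    l2sq univ (φ - ∑ a, (zm M a ⬝ᵥ φ) • zm M a)
      ≤ (C₀ * M) ^ 2 * l2sq univ (Dm (1 : Gauge M) *ᵥ φ) := by
  obtain ⟨Cb, hCb, hb⟩ := energy_flat
  obtain ⟨Cm, hCm, hm⟩ := poin_mean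
  have c1 : 1 ≤ Cm * Cb := one_le_mul_of_one_le_of_one_le hCm hCb
  refine ⟨2 * (Cm * Cb), by linarith, fun M _ φ => ?_⟩
  have hM : (1 : ℝ) ≤ M := by exact_mod_cast NeZero.pos M
  have h1 := hm M φ
  have h2 := hb M 1 (fun _ => Or.inl rfl) (fun f => by simp [flux]) φ
  obtain ⟨m, em⟩ : ∃ m : Fin 4 → ℝ, ∀ c, ∑ x, φ (x, c) = M ^ 2 * m c :=
    ⟨fun c => (∑ x, φ (x, c)) / M ^ 2, fun c => by field_simp⟩
  have e1 : ∀ a, zm M a ⬝ᵥ φ = M * ∑ c, kv a c * m c := fun a => by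
    simp only [dotProduct, Fintype.sum_prod_type_right, zm, ← mul_sum, em]
    rw [mul_sum]
    exact sum_congr rfl fun c _ => by field_simp
  have e2 : φ - ∑ a, (zm M a ⬝ᵥ φ) • zm M a = (fun s => φ s - (∑ x, φ (x, s.2)) / M ^ 2) +
      fun s => m s.2 - ∑ a, (∑ c, kv a c * m c) * kv a s.2 := by
    funext s
    simp only [Pi.sub_apply, Pi.add_apply, Finset.sum_apply, Pi.smul_apply, smul_eq_mul, e1, em, zm]
    rw [mul_div_cancel_left₀ _ (by positivity), sub_add_sub_cancel]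
    exact congrArg _ (sum_congr rfl fun a _ => by field_simp)
  have e3 : l2sq univ (fun s : Tor M × Fin 4 => m s.2 - ∑ a, (∑ c, kv a c * m c) * kv a s.2) =
      M ^ 2 * (((m 1 + √2 * m 2 + m 3) ^ 2 + (-(√2 * m 0) - m 1 + m 3) ^ 2) / 4) := by
    rw [← per_num (Real.mul_self_sqrt two_pos.le)]
    simp [l2sq, kv, Fin.sum_univ_four]
    ring
  have k : ∀ b, (∑ x, (Dm (1 : Gauge M) *ᵥ φ) (x, b)) ^ 2 ≤
      M ^ 2 * l2sq univ (Dm (1 : Gauge M) *ᵥ φ) := fun b => by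
    refine sq_sum_le_card_mul_sum_sq.trans ?_
    rw [card_univ, card_tor]
    exact mul_le_mul_of_nonneg_left (sum_le_sum fun x _ => single_le_sum
      (f := fun a => (Dm (1 : Gauge M) *ᵥ φ) (x, a) ^ 2) (fun _ _ => sq_nonneg _) (mem_univ b))
      (sq_nonneg _)
  have k0 := k 0
  have k2 := k 2
  rw [(sum_Dm φ).1, em, em, em] at k0
  rw [(sum_Dm φ).2, em, em, em] at k2
  rw [e2]
  refine (l2sq_add_le _ _ _).trans ?_
  rw [e3]
  have hE := l2sq_nonneg univ (Dm (1 : Gauge M) *ᵥ φ)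
  have h3 := h1.trans (mul_le_mul_of_nonneg_left h2 (by positivity))
  generalize l2sq univ (Dm (1 : Gauge M) *ᵥ φ) = E at *
  have k3 : M ^ 2 * (((m 1 + √2 * m 2 + m 3) ^ 2 + (-(√2 * m 0) - m 1 + m 3) ^ 2) / 4) ≤ E :=
    le_of_mul_le_mul_left (by linarith [mul_nonneg (sq_nonneg (M : ℝ)) hE])
      (by positivity : (0 : ℝ) < M ^ 2)
  have k4 : 1 * E ≤ Cm * Cb * M ^ 2 * E := by gcongr; nlinarith
  have k5 : Cm * Cb * 1 * (M ^ 2 * E) ≤ Cm * Cb * (Cm * Cb) * (M ^ 2 * E) := by gcongr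
  linarith

end Vale.Agent.P144Z.E5
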