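import Vale.Agent.P144Z.E5.Late
import Vale.Agent.P144Z.E5.Gap
import Vale.Agent.P144Z.E5.Per

/-! Estimates for a cluster of fluxes and the spectral gaps of the torus. -/

namespace Vale.Agent.P144Z

open Finset Matrix

/-- The field on the cluster. -/
theorem cluster_est (Λ : ℕ) : ∃ C : ℝ, 1 ≤ C ∧ ∀ (M : ℕ) [NeZero M] (A A' : Gauge M) (c : Tor M)
    (R r : ℕ), Cluster A A' c R r → (∃ f, flux A f = -1) → 256 ≤ r → r ≤ R → R ≤ Λ * r →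
    16 * R ≤ M → ∀ φ : Tor M × Fin 4 → ℝ, l2sq (ball c (4 * R)) φ ≤ C *
      (R ^ 2 * l2sq univ (Dm A *ᵥ φ) + R * (√(l2sq univ φ) * √(l2sq univ (Dm A *ᵥ φ)))) :=
  E5.cluster Λ

/-- Interior estimate at scales much larger than the cluster. -/
theorem late_est : ∃ C₀ : ℝ, 1 ≤ C₀ ∧ ∀ Λ : ℕ, ∃ C : ℝ, 1 ≤ C ∧ ∀ (M : ℕ) [NeZero M]
    (A A' : Gauge M) (c : Tor M) (R r : ℕ), Cluster A A' c R r → 256 ≤ r → r ≤ R → R ≤ Λ * r →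
    ∀ (z : Tor M) (ℓ ρ : ℕ), R ≤ ℓ → 64 * ℓ ≤ ρ → 8 * ρ ≤ M → ∀ g : Tor M × Fin 4 → ℝ,
    hsq A ℓ (ball z (2 * ℓ)) g ≤ (C₀ * ((ℓ : ℝ) / ρ) * √((ℓ : ℝ) / ρ) +
      C * √((R : ℝ) / ρ)) * hsq A ρ (ball z (2 * ρ)) g :=
  E5.late

/-- The spectral gap in an antiperiodic sector. -/
theorem gap_anti : ∃ C₀ : ℝ, 1 ≤ C₀ ∧ ∀ Λ R : ℕ, ∃ M₀ : ℕ, ∀ (M : ℕ) [NeZero M], M₀ ≤ M →
    ∀ (A A' : Gauge M) (c : Tor M) (r : ℕ), Cluster A A' c R r → 256 ≤ r → r ≤ R → R ≤ Λ * r →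
    (∃ i, Anti A' i) → ∀ φ : Tor M × Fin 4 → ℝ,
    l2sq univ φ ≤ (C₀ * M) ^ 2 * l2sq univ (Dm A *ᵥ φ) :=
  E5.anti_gap

/-- The same without flux, with the pointwise bound. -/
theorem gap_flat : ∃ C₀ : ℝ, 1 ≤ C₀ ∧ ∀ (M : ℕ) [NeZero M] (A : Gauge M), IsSign A →
    (∀ f, flux A f = 1) → (∃ i, Anti A i) → ∀ φ : Tor M × Fin 4 → ℝ,
    l2sq univ φ ≤ (C₀ * M) ^ 2 * l2sq univ (Dm A *ᵥ φ) ∧
      ∀ s, φ s ^ 2 ≤ (C₀ * (1 + Real.log M)) ^ 2 * l2sq univ (Dm A *ᵥ φ) :=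
  E5.flat_gap

/-- The periodic sector: kernel and gap. -/
theorem gap_per : ∃ C₀ : ℝ, 1 ≤ C₀ ∧ ∀ (M : ℕ) [NeZero M],
    (∀ a, Dm (1 : Gauge M) *ᵥ zm M a = 0) ∧
    (∀ a b, zm M a ⬝ᵥ zm M b = if a = b then 1 else 0) ∧
    ∀ φ : Tor M × Fin 4 → ℝ, l2sq univ (φ - ∑ a, (zm M a ⬝ᵥ φ) • zm M a)
      ≤ (C₀ * M) ^ 2 * l2sq univ (Dm (1 : Gauge M) *ᵥ φ) := by
  obtain ⟨C, hC, h⟩ := E5.per_gap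
  exact ⟨C, hC, fun M _ => ⟨E5.zm_ker, E5.zm_orth, h M⟩⟩

end Vale.Agent.P144Z
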