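import Vale.Agent.P144Z.G.Main
import Vale.Agent.P144Z.E1.Main
import Vale.Agent.P144Z.E2.Main

/-! Elementary inequalities for the squared norms, cut-offs, and the formula for the operator. -/

namespace Vale.Agent.P144Z.E5

open Finset Matrix

variable {M : ℕ} [NeZero M]

omit [NeZero M] in
theorem l2sq_nonneg (B : Finset (Tor M)) (g : Tor M × Fin 4 → ℝ) : 0 ≤ l2sq B g :=
  sum_nonneg fun _ _ => sum_nonneg fun _ _ => sq_nonneg _

omit [NeZero M] in
theorem l2sq_mono {B B' : Finset (Tor M)} (h : B ⊆ B') (g : Tor M × Fin 4 → ℝ) :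
    l2sq B g ≤ l2sq B' g :=
  sum_le_sum_of_subset_of_nonneg h fun _ _ _ => sum_nonneg fun _ _ => sq_nonneg _

theorem l2sq_le_univ (B : Finset (Tor M)) (g : Tor M × Fin 4 → ℝ) : l2sq B g ≤ l2sq univ g :=
  l2sq_mono (subset_univ B) g

omit [NeZero M] in
theorem l2sq_congr {B : Finset (Tor M)} {f g : Tor M × Fin 4 → ℝ} (h : ∀ s, s.1 ∈ B → f s = g s) :
    l2sq B f = l2sq B g :=
  sum_congr rfl fun x hx => sum_congr rfl fun a _ => by rw [h (x, a) hx]

omit [NeZero M] in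
theorem l2sq_add_le (B : Finset (Tor M)) (f g : Tor M × Fin 4 → ℝ) :
    l2sq B (f + g) ≤ 2 * l2sq B f + 2 * l2sq B g := by
  simp only [l2sq, mul_sum, ← sum_add_distrib, Pi.add_apply]
  exact sum_le_sum fun x _ => sum_le_sum fun a _ => by nlinarith [sq_nonneg (f (x, a) - g (x, a))]

omit [NeZero M] in
theorem l2sq_sub_le (B : Finset (Tor M)) (f g : Tor M × Fin 4 → ℝ) :
    l2sq B (f - g) ≤ 2 * l2sq B f + 2 * l2sq B g := by
  simp only [l2sq, mul_sum, ← sum_add_distrib, Pi.sub_apply]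
  exact sum_le_sum fun x _ => sum_le_sum fun a _ => by nlinarith [sq_nonneg (f (x, a) + g (x, a))]

theorem l2sq_cut {η : Tor M → ℝ} (hη : ∀ x, 0 ≤ η x ∧ η x ≤ 1) {B : Finset (Tor M)}
    (h0 : ∀ x, x ∉ B → η x = 0) (f : Tor M × Fin 4 → ℝ) :
    l2sq univ (fun s => η s.1 * f s) ≤ l2sq B f := by
  unfold l2sq
  rw [← sum_subset (subset_univ B) fun x _ hx => by simp [h0 x hx]]
  refine sum_le_sum fun x _ => sum_le_sum fun a _ => ?_
  rw [mul_pow]
  exact mul_le_of_le_one_left (sq_nonneg _) (pow_le_one₀ (hη x).1 (hη x).2)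

theorem dot_sq_le {s : Tor M × Fin 4 → ℝ} {B : Finset (Tor M)} (hs : ∀ t, t.1 ∉ B → s t = 0)
    (ζ : Tor M × Fin 4 → ℝ) : (s ⬝ᵥ ζ) ^ 2 ≤ l2sq univ s * l2sq B ζ := by
  have e : s ⬝ᵥ ζ = ∑ t ∈ B ×ˢ univ, s t * ζ t :=
    (sum_subset (subset_univ _) fun t _ ht => by
      rw [hs t fun h => ht (mem_product.2 ⟨h, mem_univ _⟩), zero_mul]).symm
  rw [e]
  refine (sum_mul_sq_le_sq_mul_sq _ _ _).trans ?_
  rw [sum_product, sum_product]
  exact mul_le_mul_of_nonneg_right (l2sq_le_univ B s) (l2sq_nonneg B ζ)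

omit [NeZero M] in
theorem l2sq_sum_le {ι : Type} (B : Finset (Tor M)) (F : Finset ι) (a : ι → ℝ)
    (u : ι → Tor M × Fin 4 → ℝ) {c d : ℝ} (hd : 0 ≤ d) (ha : ∀ f ∈ F, a f ^ 2 ≤ d)
    (hu : ∀ f ∈ F, l2sq B (u f) ≤ c) :
    l2sq B (∑ f ∈ F, a f • u f) ≤ (F.card : ℝ) ^ 2 * (d * c) := by
  have h1 : l2sq B (∑ f ∈ F, a f • u f) ≤ (F.card * d) * ∑ f ∈ F, l2sq B (u f) := by
    unfold l2sq
    rw [sum_comm (s := F), mul_sum]
    refine sum_le_sum fun x _ => ?_
    rw [sum_comm (s := F), mul_sum]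
    refine sum_le_sum fun b _ => ?_
    simp only [Finset.sum_apply, Pi.smul_apply, smul_eq_mul]
    refine (sum_mul_sq_le_sq_mul_sq _ _ _).trans
      (mul_le_mul_of_nonneg_right ?_ (sum_nonneg fun _ _ => sq_nonneg _))
    simpa using sum_le_card_nsmul F _ d ha
  have h2 : ∑ f ∈ F, l2sq B (u f) ≤ F.card * c := by simpa using sum_le_card_nsmul F _ c hu
  refine h1.trans ((mul_le_mul_of_nonneg_left h2 (by positivity)).trans (le_of_eq (by ring)))

omit [NeZero M] in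
theorem gradsq_nonneg (A : Gauge M) (B : Finset (Tor M)) (g : Tor M × Fin 4 → ℝ) :
    0 ≤ gradsq A B g :=
  sum_nonneg fun _ _ => sum_nonneg fun _ _ => sum_nonneg fun _ _ => sq_nonneg _

theorem gradsq_le_univ (A : Gauge M) (B : Finset (Tor M)) (g : Tor M × Fin 4 → ℝ) :
    gradsq A B g ≤ gradsq A univ g :=
  sum_le_sum_of_subset_of_nonneg (subset_univ B) fun _ _ _ =>
    sum_nonneg fun _ _ => sum_nonneg fun _ _ => sq_nonneg _

theorem mem_ball {z x : Tor M} {r : ℕ} : x ∈ ball z r ↔ tdist x z ≤ r := by simp [ball]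

theorem ball_mono (z : Tor M) {r r' : ℕ} (h : r ≤ r') : ball z r ⊆ ball z r' := fun _ hx =>
  mem_ball.2 ((mem_ball.1 hx).trans h)

omit [NeZero M] in
theorem flux_one {A : Gauge M} (hA : IsSign A) {f : Tor M} (h : flux A f ≠ -1) : flux A f = 1 := by
  have k : ∀ a b : ℝ, a = 1 ∨ a = -1 → b = 1 ∨ b = -1 → a * b = 1 ∨ a * b = -1 := by
    rintro a b (rfl | rfl) (rfl | rfl) <;> simp
  exact (k _ _ (k _ _ (k _ _ (hA _) (hA _)) (hA _)) (hA _)).resolve_right h

/-- A cut-off with its commutator estimate. -/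
theorem cut_est : ∃ C : ℝ, 1 ≤ C ∧ ∀ (M : ℕ) [NeZero M] (A : Gauge M), IsSign A →
    ∀ (z : Tor M) (r w : ℕ), 1 ≤ w → ∃ η : Tor M → ℝ, (∀ x, 0 ≤ η x ∧ η x ≤ 1) ∧
      (∀ x, tdist x z ≤ r → η x = 1) ∧ (∀ x, r + w ≤ tdist x z → η x = 0) ∧
      ∀ g : Tor M × Fin 4 → ℝ, (w : ℝ) ^ 2 * l2sq univ (Dm A *ᵥ (fun s => η s.1 * g s) -
        fun s => η s.1 * (Dm A *ᵥ g) s) ≤ C * l2sq (ball z (r + w)) g := by
  obtain ⟨C, hC, h⟩ := l2sq_cutoff
  refine ⟨C, hC, fun M _ A hA z r w hw => ?_⟩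
  obtain ⟨η, h0, h1, h2, h3⟩ := exists_cutoff z r hw
  refine ⟨η, h0, h1, h2, fun g => ?_⟩
  have h4 := h M A hA η _ h3 (ball z (r + w)) (fun x i hne => ?_) g
  · have hw' : (0 : ℝ) < w := by exact_mod_cast hw
    refine (mul_le_mul_of_nonneg_left h4 (by positivity)).trans (le_of_eq ?_)
    field_simp
  · have t1 := tdist_triangle x (x + uv M i) z
    have t2 := tdist_triangle (x + uv M i) x z
    have t3 := tdist_uv x i
    rw [tdist_comm x (x + uv M i)] at t1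
    rw [mem_ball, mem_ball]
    by_contra hc
    exact hne (by rw [h2 x (by omega), h2 _ (by omega)])

theorem log_sq_le {t : ℝ} (ht : 1 ≤ t) : (1 + Real.log t) ^ 2 ≤ 16 * √t := by
  have h0 : 0 ≤ t := by linarith
  have h1 : 1 ≤ √(√t) := Real.one_le_sqrt.2 (Real.one_le_sqrt.2 ht)
  have h2 : Real.log t = 4 * Real.log √(√t) := by
    rw [Real.log_sqrt (Real.sqrt_nonneg t), Real.log_sqrt h0]
    ring
  have h3 := Real.log_le_sub_one_of_pos (by linarith : 0 < √(√t))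
  have h4 := Real.log_nonneg ht
  have h5 := Real.sq_sqrt (Real.sqrt_nonneg t)
  nlinarith

theorem log_sq_le' {s t : ℝ} (hs : 1 ≤ s) (ht : s ≤ t) : (1 + Real.log s) ^ 2 ≤ 16 * √t :=
  (log_sq_le hs).trans (by gcongr)

theorem Dm_apply (A : Gauge M) (φ : Tor M × Fin 4 → ℝ) (x : Tor M) (a : Fin 4) :
    (Dm A *ᵥ φ) (x, a) = ∑ b, sA a b * φ (x, b) + tc *
      ((if a = 0 then A (x, 0) * φ (x + uv M 0, 2) else 0) +
        (if a = 1 then A (x, 1) * φ (x + uv M 1, 3) else 0) -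
        (if a = 2 then A (x - uv M 0, 0) * φ (x - uv M 0, 0) else 0) -
        (if a = 3 then A (x - uv M 1, 1) * φ (x - uv M 1, 1) else 0)) := by
  have k1 : ∀ (p : Prop) [Decidable p] (b : Fin 4) (y : Tor M) (c : ℝ),
      ∑ t : Tor M × Fin 4, (if p ∧ t.2 = b ∧ t.1 = y then c else 0) * φ t =
        if p then c * φ (y, b) else 0 := by
    intro p _ b y c
    rw [sum_eq_single (y, b) (fun t _ ht => ?_) (by simp)]
    · by_cases hp : p <;> simp [hp]
    · rw [if_neg, zero_mul]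
      exact fun h => ht (Prod.ext h.2.2 h.2.1)
  have k2 : ∀ (b a' : Fin 4) (i : Fin 2),
      ∑ t : Tor M × Fin 4, (if t.2 = b ∧ a = a' ∧ x = t.1 + uv M i then A (t.1, i) else 0) * φ t =
        if a = a' then A (x - uv M i, i) * φ (x - uv M i, b) else 0 := by
    intro b a' i
    rw [sum_eq_single (x - uv M i, b) (fun t _ ht => ?_) (by simp)]
    · by_cases hp : a = a' <;> simp [hp]
    · rw [if_neg, zero_mul]
      exact fun h => ht (Prod.ext (eq_sub_of_add_eq h.2.2.symm) h.1)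
  have k3 : ∑ t : Tor M × Fin 4, (if x = t.1 then sA a t.2 else 0) * φ t =
      ∑ b, sA a b * φ (x, b) := by
    rw [Fintype.sum_prod_type, sum_eq_single x (fun y _ hy => by simp [hy.symm]) (by simp)]
    simp
  simp only [mulVec, dotProduct, Dm, of_apply, hop, add_mul, sub_mul, mul_assoc, sum_add_distrib,
    ← mul_sum, sum_sub_distrib, k1, k2, k3]
  ring

/-- Two fields that agree outside a square act alike on functions that vanish on it. -/
theorem Dm_congr {A A' : Gauge M} {c : Tor M} {R : ℕ} (h : ∀ e, R < tdist e.1 c → A e = A' e)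
    {ψ : Tor M × Fin 4 → ℝ} (hψ : ∀ s, tdist s.1 c ≤ R + 1 → ψ s = 0) : Dm A *ᵥ ψ = Dm A' *ᵥ ψ := by
  have k1 : ∀ x i b, A (x, i) * ψ (x + uv M i, b) = A' (x, i) * ψ (x + uv M i, b) := by
    intro x i b
    rcases lt_or_ge R (tdist x c) with hx | hx
    · rw [h (x, i) hx]
    · have t1 := tdist_triangle (x + uv M i) x c
      have t2 := tdist_uv x i
      rw [hψ (x + uv M i, b) (by dsimp only; omega), mul_zero, mul_zero]
  have k2 : ∀ x i b, A (x, i) * ψ (x, b) = A' (x, i) * ψ (x, b) := by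
    intro x i b
    rcases lt_or_ge R (tdist x c) with hx | hx
    · rw [h (x, i) hx]
    · rw [hψ (x, b) (by dsimp only; omega), mul_zero, mul_zero]
  funext ⟨x, a⟩
  rw [Dm_apply, Dm_apply, k1, k1, k2, k2]

end Vale.Agent.P144Z.E5
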