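import Vale.Agent.P144Z.E4.Main
import Vale.Agent.P144Z.E5.Base

/-! The field on a cluster of fluxes. -/

namespace Vale.Agent.P144Z.E5

open Finset Matrix

variable {M : ℕ} [NeZero M]

open Classical in
theorem card_flux {A A' : Gauge M} {c : Tor M} {R r Λ : ℕ} (h : Cluster A A' c R r)
    (hr : 256 ≤ r) (hΛ : R ≤ Λ * r) :
    ((univ.filter fun f => flux A f = -1).card : ℝ) ≤ (6 * Λ + 1) ^ 2 := by
  obtain ⟨Z, hZ, -, hc⟩ := cover_ball c R (r := r / 2) (by omega)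
  choose! p hp hp' using hc
  have h1 : (univ.filter fun f => flux A f = -1).card ≤ Z.card := by
    refine card_le_card_of_injOn p (fun f hf => hp f (h.near f (mem_filter.1 hf).2))
      fun f hf f' hf' e => ?_
    have a := (mem_filter.1 (mem_coe.1 hf)).2
    have a' := (mem_filter.1 (mem_coe.1 hf')).2
    by_contra hne
    have t1 := h.sep f f' a a' hne
    have t2 := tdist_triangle f (p f) f'
    have t3 := hp' f (h.near f a)
    have t4 := hp' f' (h.near f' a')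
    rw [← e, tdist_comm] at t4
    omega
  have h2 : (2 * R : ℝ) / (r / 2 : ℕ) ≤ 6 * Λ := by
    rw [div_le_iff₀ (by exact_mod_cast (by omega : 0 < r / 2))]
    have : 2 * R ≤ 6 * Λ * (r / 2) := by
      nlinarith [Nat.mul_le_mul_left Λ (by omega : r ≤ 3 * (r / 2))]
    exact_mod_cast this
  calc ((univ.filter fun f => flux A f = -1).card : ℝ) ≤ Z.card := by exact_mod_cast h1
    _ ≤ _ := hZ
    _ ≤ _ := by gcongr

theorem cnr_dot (f : Tor M) (φ : Tor M × Fin 4 → ℝ) :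
    cnr f ⬝ᵥ φ = -φ (f, 0) + φ (f, 1) + φ (f, 2) + φ (f, 3) := by
  rw [dotProduct, Fintype.sum_prod_type,
    sum_eq_single f (fun y _ hy => by simp [cnr, hy]) (by simp)]
  simp [cnr, Fin.sum_univ_four]

theorem hsq_low (A : Gauge M) (ρ : ℝ) (B : Finset (Tor M)) (g : Tor M × Fin 4 → ℝ) :
    l2sq B g + ρ ^ 2 * l2sq B (Dm A *ᵥ g) ≤ hsq A ρ B g := by
  have k : ∀ k : ℕ, 0 ≤ ρ ^ (2 * k) * l2sq B ((Dm A ^ k) *ᵥ g) := fun k =>
    mul_nonneg (by rw [pow_mul]; positivity) (l2sq_nonneg _ _)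
  have k2 := k 2
  have k3 := k 3
  have k4 := k 4
  simp only [hsq, sum_range_succ, range_zero, sum_empty, pow_zero, one_mulVec, pow_one, mul_zero,
    mul_one]
  linarith

theorem four_sq {a b c d t : ℝ} (ha : a ^ 2 ≤ t) (hb : b ^ 2 ≤ t) (hc : c ^ 2 ≤ t)
    (hd : d ^ 2 ≤ t) : (-a + b + c + d) ^ 2 ≤ 16 * t := by
  nlinarith [sq_nonneg (a + b), sq_nonneg (a + c), sq_nonneg (a + d), sq_nonneg (b - c),
    sq_nonneg (b - d), sq_nonneg (c - d)]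

/-- Subtraction of the singular modes. -/
theorem modes (Λ : ℕ) : ∃ Q : ℝ, 0 ≤ Q ∧ ∀ (M : ℕ) [NeZero M] (A A' : Gauge M) (c : Tor M)
    (R r : ℕ), Cluster A A' c R r → 256 ≤ r → r ≤ R → R ≤ Λ * r → 16 * R ≤ M →
    ∀ φ : Tor M × Fin 4 → ℝ, ∃ ψ : Tor M × Fin 4 → ℝ,
      (∀ f, flux A f = -1 → cnr f ⬝ᵥ (φ - ψ) = 0) ∧ l2sq univ ψ ≤ Q * (r * gradsq A univ φ) ∧
      r * l2sq univ (Dm A *ᵥ ψ) ≤ Q * gradsq A univ φ := by
  classical
  obtain ⟨Ch, hCh, hh⟩ := hardy_flux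
  obtain ⟨Cs, hCs, hs⟩ := smooth_mode
  refine ⟨((6 * Λ + 1) ^ 2) ^ 2 * (16 * Ch * Cs), by positivity, ?_⟩
  intro M _ A A' c R r hc hr hrR hΛ hM φ
  obtain ⟨F, hmem, hcard⟩ : ∃ F : Finset (Tor M), (∀ f, f ∈ F ↔ flux A f = -1) ∧
      (F.card : ℝ) ^ 2 ≤ ((6 * Λ + 1) ^ 2) ^ 2 :=
    ⟨_, fun f => by simp, pow_le_pow_left₀ (Nat.cast_nonneg _) (card_flux hc hr hΛ) 2⟩
  choose! u hu1 hu2 hu3 hu4 using fun f (hf : f ∈ F) =>
    hs M A hc.sign f r hr (by omega) ((hmem f).1 hf) fun f' hne ht =>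
      flux_one hc.sign fun h' => absurd (hc.sep f' f h' ((hmem f).1 hf) hne) (by omega)
  have hr0 : (0 : ℝ) < r := by exact_mod_cast (by omega : 0 < r)
  have hd : ∀ f ∈ F, (cnr f ⬝ᵥ φ) ^ 2 ≤ 16 * (Ch * gradsq A univ φ) := by
    intro f hf
    have k : ∀ a, φ (f, a) ^ 2 ≤ Ch * gradsq A univ φ := fun a =>
      (hh M A hc.sign f ((hmem f).1 hf) φ a).trans
        (mul_le_mul_of_nonneg_left (gradsq_le_univ _ _ _) (by linarith))
    rw [cnr_dot]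
    exact four_sq (k 0) (k 1) (k 2) (k 3)
  have hlow := fun f (hf : f ∈ F) => (hsq_low A r univ (u f)).trans (hu3 f hf)
  have hG := gradsq_nonneg A univ φ
  generalize gradsq A univ φ = G at hd hG ⊢
  refine ⟨∑ f ∈ F, (cnr f ⬝ᵥ φ) • u f, fun f hf => ?_, ?_, ?_⟩
  · have hf' := (hmem f).2 hf
    rw [dotProduct_sub, dotProduct_sum, sum_eq_single f (fun f' hf'' hne => ?_)
      (fun h => absurd hf' h), dotProduct_smul, hu1 f hf', smul_eq_mul, mul_one, sub_self]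
    have t := hc.sep f f' hf ((hmem f').1 hf'') hne.symm
    have k : ∀ a, u f' (f, a) = 0 := fun a => hu2 f' hf'' (f, a) (by dsimp only; omega)
    rw [dotProduct_smul, cnr_dot f (u f'), k, k, k, k]
    simp
  · refine (l2sq_sum_le univ F _ u (c := Cs * r) (by positivity) hd fun f hf => ?_).trans ?_
    · linarith [hlow f hf, mul_nonneg (sq_nonneg (r : ℝ)) (l2sq_nonneg univ (Dm A *ᵥ u f))]
    · exact (mul_le_mul_of_nonneg_right hcard (by positivity)).trans (le_of_eq (by ring))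
  · rw [mulVec_sum, ← le_div_iff₀' hr0]
    simp only [mulVec_smul]
    refine (l2sq_sum_le univ F _ _ (c := Cs / r) (by positivity) hd fun f hf => ?_).trans ?_
    · rw [le_div_iff₀ hr0]
      refine le_of_mul_le_mul_right ?_ hr0
      linarith [hlow f hf, l2sq_nonneg univ (u f)]
    · exact (mul_le_mul_of_nonneg_right hcard (by positivity)).trans (le_of_eq (by ring))

/-- The Poincare inequality on the cluster. -/
theorem poin_clus (Λ : ℕ) : ∃ K : ℝ, 0 ≤ K ∧ ∀ (M : ℕ) [NeZero M] (A A' : Gauge M) (c : Tor M)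
    (R r : ℕ), Cluster A A' c R r → (∃ f, flux A f = -1) → 256 ≤ r → r ≤ R → R ≤ Λ * r →
    16 * R ≤ M → ∀ φ : Tor M × Fin 4 → ℝ,
    l2sq (ball c (4 * R)) φ ≤ K * (R ^ 2 * gradsq A univ φ) := by
  obtain ⟨Cp, hCp, hp⟩ := poin_flux
  obtain ⟨Ce, hCe, he⟩ := poin_ext
  refine ⟨Ce * (12 * Λ) ^ 2 * (Cp + 16), by positivity, ?_⟩
  rintro M _ A A' c R r hc ⟨f, hf⟩ hr hrR hΛ hM φ
  have h1 := hp M A hc.sign f (r / 2) (by omega) (by omega) hf (fun f' hne ht =>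
    flux_one hc.sign fun h' => absurd (hc.sep f' f h' hf hne) (by omega)) φ
  have t := hc.near f hf
  have h2 := he M A hc.sign c f (4 * R) (r / 2) (by omega) (by omega) (by omega) φ
  have k1 : ((r / 2 : ℕ) : ℝ) ≤ R := by exact_mod_cast (by omega : r / 2 ≤ R)
  have k2 : ((4 * R : ℕ) : ℝ) / (r / 2 : ℕ) ≤ 12 * Λ := by
    rw [div_le_iff₀ (by exact_mod_cast (by omega : 0 < r / 2))]
    have : 4 * R ≤ 12 * Λ * (r / 2) := by
      nlinarith [Nat.mul_le_mul_left Λ (by omega : r ≤ 3 * (r / 2))]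
    exact_mod_cast this
  have a1 := gradsq_le_univ A (ball f (r / 2 + 1)) φ
  have a2 := gradsq_nonneg A (ball f (r / 2 + 1)) φ
  have a3 := gradsq_le_univ A (ball c (4 * R)) φ
  have a4 := gradsq_nonneg A (ball c (4 * R)) φ
  have a5 := l2sq_nonneg (ball f (r / 2)) φ
  generalize gradsq A univ φ = G at *
  generalize gradsq A (ball f (r / 2 + 1)) φ = G₁ at *
  generalize gradsq A (ball c (4 * R)) φ = G₂ at *
  generalize l2sq (ball f (r / 2)) φ = X at *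
  have h3 : X ≤ Cp * R ^ 2 * G := h1.trans (by gcongr)
  calc _ ≤ _ := h2
    _ ≤ Ce * (12 * Λ) ^ 2 * (Cp * R ^ 2 * G + ((4 * R : ℕ) : ℝ) ^ 2 * G) := by gcongr
    _ = _ := by push_cast; ring

theorem clus_num {X X₁ P D E T G G' R r Λ K Q Ca Cb : ℝ} (hK : 0 ≤ K) (hQ : 0 ≤ Q) (hCa : 1 ≤ Ca)
    (hCb : 1 ≤ Cb) (hE : 0 ≤ E) (hT : 0 ≤ T) (hG0 : 0 ≤ G) (hD : 0 ≤ D) (hΛ0 : 0 ≤ Λ)
    (hR : 1 ≤ R) (hrR : r ≤ R) (hΛ : R ≤ Λ * r) (hG : G ≤ Ca * (E + T)) (h1 : P ≤ Q * (r * G))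
    (h2 : r * D ≤ Q * G) (h3 : G' ≤ Cb * (2 * E + 2 * D)) (h4 : X₁ ≤ K * (R ^ 2 * G'))
    (h5 : X ≤ 2 * X₁ + 2 * P) :
    X ≤ (1 + (4 * K * Cb * (1 + Q * Λ * Ca) + 2 * Q * Ca)) * (R ^ 2 * E + R * T) := by
  have hY : R * (E + T) ≤ R ^ 2 * E + R * T := by nlinarith [mul_nonneg (sub_nonneg.2 hR) hE]
  have k0 : R ^ 2 * E ≤ R ^ 2 * E + R * T := le_add_of_nonneg_right (by positivity)
  have hY0 : 0 ≤ R ^ 2 * E + R * T := by positivity
  generalize R ^ 2 * E + R * T = Y at *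
  have k1 : R * G ≤ Ca * Y :=
    calc R * G ≤ R * (Ca * (E + T)) := by gcongr
      _ = Ca * (R * (E + T)) := by ring
      _ ≤ _ := by gcongr
  have k2 : R ^ 2 * D ≤ Q * Λ * Ca * Y :=
    calc R ^ 2 * D = R * (R * D) := by ring
      _ ≤ R * (Λ * r * D) := by gcongr
      _ = Λ * R * (r * D) := by ring
      _ ≤ Λ * R * (Q * G) := by gcongr
      _ = Q * Λ * (R * G) := by ring
      _ ≤ Q * Λ * (Ca * Y) := by gcongr
      _ = _ := by ring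
  have k3 : X₁ ≤ 2 * K * Cb * (1 + Q * Λ * Ca) * Y :=
    calc X₁ ≤ K * (R ^ 2 * (Cb * (2 * E + 2 * D))) := h4.trans (by gcongr)
      _ = 2 * K * Cb * (R ^ 2 * E + R ^ 2 * D) := by ring
      _ ≤ 2 * K * Cb * (Y + Q * Λ * Ca * Y) := by gcongr
      _ = _ := by ring
  have k4 : P ≤ Q * Ca * Y :=
    calc P ≤ Q * (R * G) := h1.trans (by gcongr)
      _ ≤ Q * (Ca * Y) := by gcongr
      _ = _ := by ring
  linarith

theorem cluster (Λ : ℕ) : ∃ C : ℝ, 1 ≤ C ∧ ∀ (M : ℕ) [NeZero M] (A A' : Gauge M) (c : Tor M)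
    (R r : ℕ), Cluster A A' c R r → (∃ f, flux A f = -1) → 256 ≤ r → r ≤ R → R ≤ Λ * r →
    16 * R ≤ M → ∀ φ : Tor M × Fin 4 → ℝ, l2sq (ball c (4 * R)) φ ≤ C *
      (R ^ 2 * l2sq univ (Dm A *ᵥ φ) + R * (√(l2sq univ φ) * √(l2sq univ (Dm A *ᵥ φ)))) := by
  obtain ⟨Ca, hCa, ha⟩ := energy_a
  obtain ⟨Cb, hCb, hb⟩ := energy_b
  obtain ⟨Q, hQ, hm⟩ := modes Λ
  obtain ⟨K, hK, hp⟩ := poin_clus Λ
  refine ⟨1 + (4 * K * Cb * (1 + Q * Λ * Ca) + 2 * Q * Ca),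
    le_add_of_nonneg_right (by positivity), fun M _ A A' c R r hc hf hr hrR hΛ hM φ => ?_⟩
  obtain ⟨ψ, h0, h1, h2⟩ := hm M A A' c R r hc hr hrR hΛ hM φ
  have h3 := (hb M A hc.sign _ h0).trans (mul_le_mul_of_nonneg_left
    ((congrArg (l2sq univ) (mulVec_sub (Dm A) φ ψ)).trans_le (l2sq_sub_le _ _ _)) (by linarith))
  have h5 := l2sq_add_le (ball c (4 * R)) (φ - ψ) ψ
  rw [sub_add_cancel] at h5
  refine clus_num hK hQ hCa hCb (l2sq_nonneg _ _)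
    (mul_nonneg (Real.sqrt_nonneg _) (Real.sqrt_nonneg _)) (gradsq_nonneg A univ φ)
    (l2sq_nonneg _ _) (Nat.cast_nonneg Λ)
    (by exact_mod_cast (by omega : 1 ≤ R)) (by exact_mod_cast hrR) (by exact_mod_cast hΛ) ?_
    ((l2sq_le_univ _ ψ).trans h1) h2 h3 (hp M A A' c R r hc hf hr hrR hΛ hM _) h5
  exact (ha M A hc.sign φ univ (by simp)).trans (mul_le_mul_of_nonneg_left (add_le_add le_rfl
    (mul_le_mul_of_nonneg_right (Real.sqrt_le_sqrt (l2sq_le_univ _ φ)) (Real.sqrt_nonneg _)))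
    (by linarith))

end Vale.Agent.P144Z.E5
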