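import Vale.Agent.P144Z.E5.Clus
import Vale.Agent.P144Z.E5.Flat

/-! The interior estimate at scales much larger than the cluster. -/

namespace Vale.Agent.P144Z.E5

open Finset Matrix

theorem hsq_split {M : ℕ} [NeZero M] (A : Gauge M) {l p : ℝ} (hl : 0 ≤ l) (hp : l ≤ p)
    (hp0 : 0 < p) {B B' : Finset (Tor M)} (hB : B ⊆ B') (g : Tor M × Fin 4 → ℝ) :
    hsq A l B g ≤ l2sq B g + (l / p) ^ 2 * hsq A p B' g := by
  unfold hsq
  rw [sum_range_succ', sum_range_succ' _ 4, mul_add, add_comm, mul_sum]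
  simp only [mul_zero, pow_zero, one_mul, one_mulVec]
  refine add_le_add le_rfl (le_add_of_le_of_nonneg (sum_le_sum fun k _ => ?_)
    (mul_nonneg (sq_nonneg _) (l2sq_nonneg _ _)))
  rw [← mul_assoc]
  refine mul_le_mul ?_ (l2sq_mono hB _) (l2sq_nonneg _ _) (by positivity)
  calc l ^ (2 * (k + 1)) = l ^ 2 * l ^ (2 * k) := by ring
    _ ≤ l ^ 2 * p ^ (2 * k) := by gcongr
    _ = _ := by field_simp; ring

/-- Localization of a field. -/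
theorem cut_field : ∃ C : ℝ, 1 ≤ C ∧ ∀ (M : ℕ) [NeZero M] (A : Gauge M), IsSign A →
    ∀ (z : Tor M) (ρ : ℕ), 2 ≤ ρ → ∀ g : Tor M × Fin 4 → ℝ, ∃ φ : Tor M × Fin 4 → ℝ,
      (∀ s, tdist s.1 z ≤ ρ → φ s = g s) ∧ l2sq univ φ ≤ hsq A ρ (ball z (2 * ρ)) g ∧
      ρ ^ 2 * l2sq univ (Dm A *ᵥ φ) ≤ C * hsq A ρ (ball z (2 * ρ)) g := by
  obtain ⟨C, hC, hc⟩ := cut_est
  refine ⟨20 * C, by linarith, fun M _ A hA z ρ hρ g => ?_⟩
  obtain ⟨η, e0, e1, e2, e3⟩ := hc M A hA z ρ (ρ / 2) (by omega)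
  have e4 : ∀ x, x ∉ ball z (2 * ρ) → η x = 0 := fun x hx => e2 x (by
    rw [mem_ball] at hx
    omega)
  have h0 := hsq_low A ρ (ball z (2 * ρ)) g
  have h1 := l2sq_nonneg (ball z (2 * ρ)) g
  have h2 := mul_nonneg (sq_nonneg (ρ : ℝ)) (l2sq_nonneg (ball z (2 * ρ)) (Dm A *ᵥ g))
  refine ⟨fun s => η s.1 * g s, fun s hs => by simp only [e1 _ hs, one_mul],
    (l2sq_cut e0 e4 g).trans (by linarith), ?_⟩
  have k2 := l2sq_add_le univ (Dm A *ᵥ (fun s => η s.1 * g s) - fun s => η s.1 * (Dm A *ᵥ g) s)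
    fun s => η s.1 * (Dm A *ᵥ g) s
  rw [sub_add_cancel] at k2
  have k3 := mul_le_mul_of_nonneg_left (l2sq_cut e0 e4 (Dm A *ᵥ g)) (sq_nonneg (ρ : ℝ))
  have k4 := (e3 g).trans (mul_le_mul_of_nonneg_left
    (l2sq_mono (ball_mono z (by omega : ρ + ρ / 2 ≤ 2 * ρ)) g) (by linarith))
  have k5 := mul_le_mul_of_nonneg_right
    (by exact_mod_cast (by nlinarith [(by omega : ρ ≤ 3 * (ρ / 2))] : ρ ^ 2 ≤ 9 * (ρ / 2) ^ 2) :
      (ρ : ℝ) ^ 2 ≤ 9 * ((ρ / 2 : ℕ) : ℝ) ^ 2)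
    (l2sq_nonneg univ (Dm A *ᵥ (fun s => η s.1 * g s) - fun s => η s.1 * (Dm A *ᵥ g) s))
  have k6 := mul_le_mul_of_nonneg_left k2 (sq_nonneg (ρ : ℝ))
  have k7 := mul_le_mul_of_nonneg_left (by linarith :
    l2sq (ball z (2 * ρ)) g ≤ hsq A ρ (ball z (2 * ρ)) g) (by linarith : 0 ≤ C)
  have k8 := mul_le_mul_of_nonneg_right hC (by linarith : 0 ≤ hsq A ρ (ball z (2 * ρ)) g)
  linarith

theorem late_num1 {R p N E H X P C K κ : ℝ} (hR : 0 < R) (hp : R ≤ p) (hC : 1 ≤ C) (hK : 0 ≤ K)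
    (hκ : 0 ≤ κ) (hN : 0 ≤ N) (hE : 0 ≤ E) (h1 : N ≤ H) (h2 : p ^ 2 * E ≤ C * H)
    (h3 : X ≤ K * (R ^ 2 * E + R * (√N * √E))) (h4 : P ≤ κ * √(p / R) * X) :
    P ≤ 2 * κ * K * C * √(R / p) * H := by
  have hp0 : 0 < p := by linarith
  have hH : 0 ≤ H := by linarith
  have k1 : p * (√N * √E) ≤ C * H := by
    refine abs_le_of_sq_le_sq' ?_ (by positivity) |>.2
    rw [mul_pow, mul_pow, Real.sq_sqrt hN, Real.sq_sqrt hE]
    calc p ^ 2 * (N * E) = 1 * N * (p ^ 2 * E) := by ring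
      _ ≤ C * H * (C * H) := by gcongr
      _ = _ := by ring
  have k2 : X ≤ 2 * K * C * (R / p) * H :=
    calc X ≤ K * (R * p * E + R * (√N * √E)) := h3.trans (by rw [pow_two]; gcongr)
      _ = K * (R / p) * (p ^ 2 * E + p * (√N * √E)) := by field_simp
      _ ≤ K * (R / p) * (C * H + C * H) := by gcongr
      _ = _ := by ring
  have q0 : 0 < √(R / p) := Real.sqrt_pos.2 (by positivity)
  have q2 : √(R / p) ^ 2 = R / p := Real.sq_sqrt (by positivity)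
  have q3 : √(p / R) = (√(R / p))⁻¹ := by rw [← Real.sqrt_inv, inv_div]
  rw [q3] at h4
  rw [← q2] at k2
  generalize √(R / p) = q at *
  calc P ≤ κ * q⁻¹ * (2 * K * C * q ^ 2 * H) := h4.trans (by gcongr)
    _ = _ := by field_simp

theorem late_num2 {u s H N E P Y Z W T Cf C K : ℝ} (hu : 0 ≤ u) (hu1 : u ≤ 1) (hs : 0 ≤ s)
    (hCf : 1 ≤ Cf) (hK : 0 ≤ K) (hH : 0 ≤ H) (h1 : N ≤ H) (h2 : E ≤ C * H)
    (h3 : P ≤ K * s * H) (h4 : W ≤ 2 * N + 2 * P) (h5 : Y ≤ Cf * (u * √u) * (W + E))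
    (h6 : Z ≤ 2 * Y + 2 * P) (h7 : T ≤ Z + u ^ 2 * H) :
    T ≤ ((1 + 2 * Cf * (2 + C)) * u * √u + (1 + (4 * Cf + 2) * K) * s) * H := by
  have q0 : 0 ≤ √u := Real.sqrt_nonneg u
  have q1 : √u ≤ 1 := Real.sqrt_le_one.2 hu1
  have q2 : u ≤ √u := by nlinarith [Real.sq_sqrt hu]
  have k0 : u ^ 2 * H ≤ u * √u * H := by rw [pow_two]; gcongr
  have k1 : u * √u ≤ 1 := by nlinarith
  have k2 : Y ≤ Cf * (u * √u) * ((2 + C) * H) + Cf * 1 * (2 * (K * s * H)) :=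
    calc Y ≤ Cf * (u * √u) * ((2 + C) * H + 2 * (K * s * H)) :=
          h5.trans (mul_le_mul_of_nonneg_left (by linarith) (by positivity))
      _ = Cf * (u * √u) * ((2 + C) * H) + Cf * (u * √u) * (2 * (K * s * H)) := by ring
      _ ≤ _ := by gcongr
  have k3 : 0 ≤ s * H := by positivity
  linarith

theorem late : ∃ C₀ : ℝ, 1 ≤ C₀ ∧ ∀ Λ : ℕ, ∃ C : ℝ, 1 ≤ C ∧ ∀ (M : ℕ) [NeZero M]
    (A A' : Gauge M) (c : Tor M) (R r : ℕ), Cluster A A' c R r → 256 ≤ r → r ≤ R → R ≤ Λ * r →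
    ∀ (z : Tor M) (ℓ ρ : ℕ), R ≤ ℓ → 64 * ℓ ≤ ρ → 8 * ρ ≤ M → ∀ g : Tor M × Fin 4 → ℝ,
    hsq A ℓ (ball z (2 * ℓ)) g ≤ (C₀ * ((ℓ : ℝ) / ρ) * √((ℓ : ℝ) / ρ) +
      C * √((R : ℝ) / ρ)) * hsq A ρ (ball z (2 * ρ)) g := by
  obtain ⟨Cf, hCf, hf⟩ := flat_est
  obtain ⟨C, hC, hc⟩ := cut_field
  obtain ⟨Cr, hCr, hr⟩ := reduce
  obtain ⟨Cs, hCs, hs⟩ := poin_supp
  refine ⟨1 + 2 * Cf * (2 + C), le_add_of_nonneg_right (by positivity), fun Λ => ?_⟩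
  obtain ⟨K, hK, hk⟩ := cluster Λ
  refine ⟨1 + (4 * Cf + 2) * (2 * (Cr * Cs) * K * C), le_add_of_nonneg_right (by positivity),
    fun M _ A A' c R r h h256 hrR hΛ z ℓ ρ hℓ h64 hM g => ?_⟩
  obtain ⟨φ, a1, a2, a3⟩ := hc M A h.sign z ρ (by omega) g
  have hH := (l2sq_nonneg _ _).trans a2
  have hR : (0 : ℝ) < R := by exact_mod_cast (by omega : 0 < R)
  have hRρ : (R : ℝ) ≤ ρ := by exact_mod_cast (by omega : R ≤ ρ)
  have hℓρ : (ℓ : ℝ) ≤ ρ := by exact_mod_cast (by omega : ℓ ≤ ρ)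
  obtain ⟨A₁, y, b1, b2, b3, b4⟩ : ∃ (A₁ : Gauge M) (y : Tor M × Fin 4 → ℝ), IsSign A₁ ∧
      (∀ f, flux A₁ f = 1) ∧ l2sq (ball z ρ) (Dm A₁ *ᵥ y) ≤ l2sq univ (Dm A *ᵥ φ) ∧
      l2sq univ (φ - y) ≤ 2 * (Cr * Cs) * K * C * √((R : ℝ) / ρ) *
        hsq A ρ (ball z (2 * ρ)) g := by
    by_cases hF : ∃ f, flux A f = -1
    · obtain ⟨y, b1, b2⟩ := hr M A A' c R r h (by omega) (ball z ρ) ρ Cs (ρ / R) (by omega)
        (by omega) hCs ((one_le_div hR).2 hRρ) (by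
          rw [div_le_div_iff₀ (by positivity) hR]
          nlinarith) (fun ζ hζ => hs M A' h.sign' z ρ (by omega) ζ fun s hs' =>
            hζ s fun hb => absurd (mem_ball.1 hb) (not_le.2 hs')) φ
      exact ⟨A', y, h.sign', h.flat, b1, late_num1 hR hRρ hC (by linarith) (by positivity)
        (l2sq_nonneg _ _) (l2sq_nonneg _ _) a2 a3
        (hk M A A' c R r h hF h256 hrR hΛ (by omega) φ) b2⟩
    · refine ⟨A, φ, h.sign, fun f => flux_one h.sign fun hf => hF ⟨f, hf⟩, l2sq_le_univ _ _, ?_⟩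
      rw [sub_self]
      exact le_trans (by simp [l2sq]) (mul_nonneg (by positivity) hH)
  have k1 := l2sq_sub_le univ φ (φ - y)
  have k2 := l2sq_add_le (ball z (2 * ℓ)) y (φ - y)
  rw [sub_sub_cancel] at k1
  rw [add_sub_cancel, l2sq_congr (g := g) fun s hs' => a1 s ((mem_ball.1 hs').trans (by omega))]
    at k2
  exact late_num2 (by positivity) ((div_le_one (by linarith)).2 hℓρ) (Real.sqrt_nonneg _) hCf
    (by positivity) hH a2 ((mul_le_mul_of_nonneg_left b3 (sq_nonneg _)).trans a3) b4 k1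
    (hf M A₁ b1 b2 z ℓ ρ (by omega) (by omega) (by omega) y)
    (k2.trans (by linarith [l2sq_le_univ (ball z (2 * ℓ)) (φ - y)]))
    (hsq_split A (Nat.cast_nonneg ℓ) hℓρ (by linarith) (ball_mono z (by omega)) g)

end Vale.Agent.P144Z.E5
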